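import Vale.Agent.P092.H35.Orb
import Vale.Agent.P092.H85.CD
import Vale.Agent.P092.H515.RkDef
import Vale.Agent.P092.PA.Defs

/-!
P092 (helper259), block [A-GRP]: from a lattice in a product of two groups to the product of the
quotients by the centres.  Injectivity of the projections, image lattice, centralisers, the
invariant probability measure.
-/

set_option linter.all false

open MeasureTheory Filter Topology Set

namespace Vale.Agent.P092.H259

/-- Infinite conjugacy classes. -/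
def Icc (Γ : Type) [Group Γ] : Prop :=
  ∀ g : Γ, g ≠ 1 → Set.Infinite {y : Γ | ∃ h, y = h * g * h⁻¹}

/-- The quotient by the centre. -/
abbrev PQ (E : Type) [Group E] : Type := E ⧸ Subgroup.center E

/-- The projection to the quotient by the centre. -/
abbrev pq (E : Type) [Group E] : E →* PQ E := QuotientGroup.mk' (Subgroup.center E)

/-- The facts used about a factor: finite centre, and an element with open centraliser is central. -/
structure Cf (E : Type) [Group E] [TopologicalSpace E] : Prop where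
  fin : Finite (Subgroup.center E)
  cen : ∀ g : E, IsOpen ((Subgroup.centralizer {g} : Subgroup E) : Set E) →
    g ∈ Subgroup.center E

section gen

variable {E : Type} [Group E] [TopologicalSpace E] [IsTopologicalGroup E]

theorem continuous_pq : Continuous (pq E) := continuous_quotient_mk'

theorem pq_surj : Function.Surjective (pq E) := QuotientGroup.mk'_surjective _

theorem isProperMap_pq [T2Space E] (h : Finite (Subgroup.center E)) : IsProperMap (pq E) := by
  have hc : IsCompact ((Subgroup.center E : Subgroup E) : Set E) := (Set.toFinite _).isCompact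
  rw [isProperMap_iff_isClosedMap_and_compact_fibers]
  refine ⟨continuous_pq, QuotientGroup.isClosedMap_coe hc, fun y => ?_⟩
  obtain ⟨x, rfl⟩ := pq_surj y
  have e : (pq E) ⁻¹' {pq E x} = (fun z => x * z) '' ((Subgroup.center E : Subgroup E) : Set E) := by
    ext z
    constructor
    · intro hz
      have hz' : (x : PQ E) = (z : PQ E) := (mem_singleton_iff.1 hz).symm
      exact ⟨x⁻¹ * z, QuotientGroup.eq.1 hz', by simp⟩
    · rintro ⟨c, hc, rfl⟩
      refine mem_singleton_iff.2 ?_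
      show ((x * c : E) : PQ E) = (x : PQ E)
      refine (QuotientGroup.eq.2 ?_).symm
      simpa using hc
  rw [e]
  exact hc.image (by fun_prop)

theorem isClosed_center [T2Space E] : IsClosed ((Subgroup.center E : Subgroup E) : Set E) := by
  have e : ((Subgroup.center E : Subgroup E) : Set E) = ⋂ g : E, {x | g * x = x * g} := by
    ext x
    simp only [SetLike.mem_coe, Subgroup.mem_center_iff, mem_iInter, mem_setOf_eq]
  rw [e]
  exact isClosed_iInter fun g => isClosed_eq (by fun_prop) (by fun_prop)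

instance [T2Space E] : T2Space (PQ E) := by
  haveI : IsClosed ((Subgroup.center E : Subgroup E) : Set E) := isClosed_center
  infer_instance

end gen

section prod

variable {E₁ E₂ : Type} [Group E₁] [TopologicalSpace E₁] [IsTopologicalGroup E₁]
  [Group E₂] [TopologicalSpace E₂] [IsTopologicalGroup E₂]

/-- The places of a subgroup of a product. -/
def p₁ (Γ : Subgroup (E₁ × E₂)) : Γ →* PQ E₁ := (pq E₁).comp ((MonoidHom.fst E₁ E₂).comp Γ.subtype)

/-- The places of a subgroup of a product. -/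
def p₂ (Γ : Subgroup (E₁ × E₂)) : Γ →* PQ E₂ := (pq E₂).comp ((MonoidHom.snd E₁ E₂).comp Γ.subtype)

/-- The quotient of the product by the product of the centres. -/
def pp (E₁ E₂ : Type) [Group E₁] [Group E₂] : E₁ × E₂ →* PQ E₁ × PQ E₂ :=
  MonoidHom.prodMap (pq E₁) (pq E₂)

theorem finite_of_compact [T2Space E₁] [T2Space E₂] (Γ : Subgroup (E₁ × E₂)) [DiscreteTopology Γ]
    {C : Set (E₁ × E₂)} (hC : IsCompact C) : {γ : Γ | (γ : E₁ × E₂) ∈ C}.Finite := by
  have hcl : IsClosed (Γ : Set (E₁ × E₂)) := Subgroup.isClosed_of_discrete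
  have hemb : IsClosedEmbedding ((↑) : Γ → E₁ × E₂) := hcl.isClosedEmbedding_subtypeVal
  have h2 : IsCompact (((↑) : Γ → E₁ × E₂) ⁻¹' C) := hemb.isCompact_preimage hC
  exact h2.finite_of_discrete

theorem fst_central [LocallyCompactSpace E₂] [T2Space E₁] [T2Space E₂]
    (Γ : Subgroup (E₁ × E₂)) [DiscreteTopology Γ] (hicc : Icc Γ)
    (h2 : DenseRange fun γ : Γ => (γ : E₁ × E₂).2)
    (hc : ∀ g : E₂, IsOpen ((Subgroup.centralizer {g} : Subgroup E₂) : Set E₂) →
      g ∈ Subgroup.center E₂) (γ : Γ)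
    (hγ : (γ : E₁ × E₂).1 ∈ Subgroup.center E₁) : γ = 1 := by
  by_contra hne
  obtain ⟨U, hU, hU1⟩ := exists_compact_mem_nhds (1 : E₂)
  set x : E₂ := (γ : E₁ × E₂).2 with hx
  have hK : IsCompact ({(γ : E₁ × E₂).1} ×ˢ
      ((fun u : E₂ => u * x * u⁻¹) '' U) : Set (E₁ × E₂)) :=
    isCompact_singleton.prod (hU.image (by fun_prop))
  have hfin := finite_of_compact Γ hK
  have hopen := H35.centralizer_open_of_finite ((MonoidHom.snd E₁ E₂).comp Γ.subtype) h2 x U hU1
    ((fun γ : Γ => (γ : E₁ × E₂).2) '' {γ' : Γ | (γ' : E₁ × E₂) ∈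
      ({(γ : E₁ × E₂).1} ×ˢ ((fun u : E₂ => u * x * u⁻¹) '' U) : Set (E₁ × E₂))})
    (hfin.image _) (by
      intro w hw
      refine ⟨w * γ * w⁻¹, ⟨?_, ?_⟩, ?_⟩
      · show (w : E₁ × E₂).1 * (γ : E₁ × E₂).1 * (w : E₁ × E₂).1⁻¹ ∈ ({(γ : E₁ × E₂).1} : Set E₁)
        rw [mem_singleton_iff, Subgroup.mem_center_iff.1 hγ (w : E₁ × E₂).1,
          mul_inv_cancel_right]
      · exact ⟨(w : E₁ × E₂).2, hw, rfl⟩
      · rfl)
  have hx2 := hc x hopen
  refine (hicc γ hne) ((finite_singleton γ).subset ?_)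
  rintro _ ⟨h, rfl⟩
  rw [mem_singleton_iff]
  refine Subtype.ext (Prod.ext ?_ ?_)
  · show (h : E₁ × E₂).1 * (γ : E₁ × E₂).1 * (h : E₁ × E₂).1⁻¹ = (γ : E₁ × E₂).1
    rw [Subgroup.mem_center_iff.1 hγ (h : E₁ × E₂).1, mul_inv_cancel_right]
  · show (h : E₁ × E₂).2 * (γ : E₁ × E₂).2 * (h : E₁ × E₂).2⁻¹ = (γ : E₁ × E₂).2
    rw [Subgroup.mem_center_iff.1 hx2 (h : E₁ × E₂).2, mul_inv_cancel_right]

theorem snd_central [LocallyCompactSpace E₁] [T2Space E₁] [T2Space E₂]
    (Γ : Subgroup (E₁ × E₂)) [DiscreteTopology Γ] (hicc : Icc Γ)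
    (h1 : DenseRange fun γ : Γ => (γ : E₁ × E₂).1)
    (hc : ∀ g : E₁, IsOpen ((Subgroup.centralizer {g} : Subgroup E₁) : Set E₁) →
      g ∈ Subgroup.center E₁) (γ : Γ)
    (hγ : (γ : E₁ × E₂).2 ∈ Subgroup.center E₂) : γ = 1 := by
  by_contra hne
  obtain ⟨U, hU, hU1⟩ := exists_compact_mem_nhds (1 : E₁)
  set x : E₁ := (γ : E₁ × E₂).1 with hx
  have hK : IsCompact (((fun u : E₁ => u * x * u⁻¹) '' U) ×ˢ {(γ : E₁ × E₂).2} : Set (E₁ × E₂)) :=
    (hU.image (by fun_prop)).prod isCompact_singleton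
  have hfin := finite_of_compact Γ hK
  have hopen := H35.centralizer_open_of_finite ((MonoidHom.fst E₁ E₂).comp Γ.subtype) h1 x U hU1
    ((fun γ : Γ => (γ : E₁ × E₂).1) '' {γ' : Γ | (γ' : E₁ × E₂) ∈
      (((fun u : E₁ => u * x * u⁻¹) '' U) ×ˢ {(γ : E₁ × E₂).2} : Set (E₁ × E₂))})
    (hfin.image _) (by
      intro w hw
      refine ⟨w * γ * w⁻¹, ⟨?_, ?_⟩, ?_⟩
      · exact ⟨(w : E₁ × E₂).1, hw, rfl⟩
      · show (w : E₁ × E₂).2 * (γ : E₁ × E₂).2 * (w : E₁ × E₂).2⁻¹ ∈ ({(γ : E₁ × E₂).2} : Set E₂)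
        rw [mem_singleton_iff, Subgroup.mem_center_iff.1 hγ (w : E₁ × E₂).2,
          mul_inv_cancel_right]
      · rfl)
  have hx2 := hc x hopen
  refine (hicc γ hne) ((finite_singleton γ).subset ?_)
  rintro _ ⟨h, rfl⟩
  rw [mem_singleton_iff]
  refine Subtype.ext (Prod.ext ?_ ?_)
  · show (h : E₁ × E₂).1 * (γ : E₁ × E₂).1 * (h : E₁ × E₂).1⁻¹ = (γ : E₁ × E₂).1
    rw [Subgroup.mem_center_iff.1 hx2 (h : E₁ × E₂).1, mul_inv_cancel_right]
  · show (h : E₁ × E₂).2 * (γ : E₁ × E₂).2 * (h : E₁ × E₂).2⁻¹ = (γ : E₁ × E₂).2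
    rw [Subgroup.mem_center_iff.1 hγ (h : E₁ × E₂).2, mul_inv_cancel_right]

/-- An element which commutes modulo the finite centre with a neighbourhood of `1` is central. -/
theorem central_of_comm {E : Type} [Group E] [TopologicalSpace E] [IsTopologicalGroup E] [T2Space E]
    (hE : Cf E) (g : E) (U : Set (PQ E)) (hU : U ∈ 𝓝 (1 : PQ E))
    (h : ∀ u ∈ U, u * pq E g = pq E g * u) : g ∈ Subgroup.center E := by
  have hfin : ((Subgroup.center E : Subgroup E) : Set E).Finite := by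
    haveI := hE.fin
    exact Set.toFinite _
  have h1 : (pq E) ⁻¹' U ∈ 𝓝 (1 : E) := by
    have := (continuous_pq (E := E)).tendsto 1
    rw [map_one] at this
    exact this hU
  have hcont : Continuous fun u : E => g * u * g⁻¹ * u⁻¹ := by fun_prop
  have h2 : (fun u : E => g * u * g⁻¹ * u⁻¹) ⁻¹'
      (((Subgroup.center E : Subgroup E) : Set E) \ {1})ᶜ ∈ 𝓝 (1 : E) := by
    refine hcont.continuousAt.preimage_mem_nhds ?_
    refine ((hfin.subset diff_subset).isClosed.isOpen_compl).mem_nhds ?_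
    simp
  have hW : ∀ u ∈ (pq E) ⁻¹' U ∩ (fun u : E => g * u * g⁻¹ * u⁻¹) ⁻¹'
      (((Subgroup.center E : Subgroup E) : Set E) \ {1})ᶜ, g * u = u * g := by
    rintro u ⟨hu1, hu2⟩
    have h3 : g * u * g⁻¹ * u⁻¹ ∈ Subgroup.center E := by
      have h4 : pq E (g * u * g⁻¹ * u⁻¹) = 1 := by
        have := h _ hu1
        simp only [map_mul, map_inv]
        rw [← this]
        group
      exact (QuotientGroup.eq_one_iff _).1 h4
    have h5 : g * u * g⁻¹ * u⁻¹ = 1 := by
      by_contra hne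
      exact hu2 ⟨h3, hne⟩
    calc g * u = (g * u * g⁻¹ * u⁻¹) * (u * g) := by group
      _ = u * g := by rw [h5, one_mul]
  refine hE.cen g (Subgroup.isOpen_of_mem_nhds (g := 1) _ (mem_of_superset (inter_mem h1 h2) ?_))
  intro u hu
  show u ∈ (Subgroup.centralizer {g} : Subgroup E)
  rw [Subgroup.mem_centralizer_singleton_iff]
  exact (hW u hu).symm

theorem dense_comp {X : Type} {E : Type} [Group E] [TopologicalSpace E] [IsTopologicalGroup E]
    {f : X → E} (hf : DenseRange f) : DenseRange fun x => pq E (f x) :=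
  (pq_surj.denseRange).comp hf continuous_pq

variable [T2Space E₁] [T2Space E₂] [LocallyCompactSpace E₁] [LocallyCompactSpace E₂]

/-- The first place. -/
theorem pl₁ (H₁ : Cf E₁) (H₂ : Cf E₂) (Γ : Subgroup (E₁ × E₂)) (hd : DiscreteTopology Γ)
    (hicc : Icc Γ) (h1 : DenseRange fun γ : Γ => (γ : E₁ × E₂).1)
    (h2 : DenseRange fun γ : Γ => (γ : E₁ × E₂).2) : PA.Pl (p₁ Γ) where
  inj := by
    refine (injective_iff_map_eq_one _).2 fun γ hγ => ?_
    exact fst_central Γ hicc h2 H₂.cen γ ((QuotientGroup.eq_one_iff _).1 hγ)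
  dense := dense_comp h1
  noc := by
    intro g hg U hU
    by_contra hcon
    push_neg at hcon
    exact hg (fst_central Γ hicc h2 H₂.cen g (central_of_comm H₁ _ U hU hcon))

/-- The second place. -/
theorem pl₂ (H₁ : Cf E₁) (H₂ : Cf E₂) (Γ : Subgroup (E₁ × E₂)) (hd : DiscreteTopology Γ)
    (hicc : Icc Γ) (h1 : DenseRange fun γ : Γ => (γ : E₁ × E₂).1)
    (h2 : DenseRange fun γ : Γ => (γ : E₁ × E₂).2) : PA.Pl (p₂ Γ) where
  inj := by
    refine (injective_iff_map_eq_one _).2 fun γ hγ => ?_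
    exact snd_central Γ hicc h1 H₁.cen γ ((QuotientGroup.eq_one_iff _).1 hγ)
  dense := dense_comp h2
  noc := by
    intro g hg U hU
    by_contra hcon
    push_neg at hcon
    exact hg (snd_central Γ hicc h1 H₁.cen g (central_of_comm H₂ _ U hU hcon))

/-- Both places together are proper. -/
theorem finite_pp (H₁ : Cf E₁) (H₂ : Cf E₂) (Γ : Subgroup (E₁ × E₂)) [DiscreteTopology Γ]
    {C : Set (PQ E₁ × PQ E₂)} (hC : IsCompact C) :
    {γ : Γ | (p₁ Γ γ, p₂ Γ γ) ∈ C}.Finite := by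
  have hp : IsProperMap (Prod.map (pq E₁) (pq E₂)) :=
    (isProperMap_pq H₁.fin).prodMap (isProperMap_pq H₂.fin)
  exact finite_of_compact Γ (hp.isCompact_preimage hC)

end prod

/-- The conjugates of an element by the elements near `1` at a place. -/
theorem infinite_of_pl {Γ G : Type} [Group Γ] [Group G] [TopologicalSpace G] [IsTopologicalGroup G]
    [T1Space G] {p : Γ →* G} (hp : PA.Pl p) (g : Γ) (hg : g ≠ 1) (U : Set G)
    (hU : U ∈ 𝓝 (1 : G)) : {k : Γ | ∃ h, p h ∈ U ∧ k = h * g * h⁻¹}.Infinite := by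
  intro hfin
  have hopen := H35.centralizer_open_of_finite p hp.dense (p g) U hU
    (p '' {k : Γ | ∃ h, p h ∈ U ∧ k = h * g * h⁻¹}) (hfin.image _) (by
      intro w hw
      exact ⟨w * g * w⁻¹, ⟨w, hw, rfl⟩, by simp⟩)
  obtain ⟨u, hu, hne⟩ := hp.noc g hg _ (hopen.mem_nhds (Subgroup.one_mem _))
  exact hne (Subgroup.mem_centralizer_singleton_iff.1 hu)

end Vale.Agent.P092.H259
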