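import Vale.Agent.P092.H259.Grp

/-!
P092 (helper259), block [A-GRP]: the invariant probability measure of a lattice as a measure on the
group; images of lattices under proper surjective homomorphisms.
-/

set_option linter.all false

open MeasureTheory Filter Topology Set

namespace Vale.Agent.P092.H259

open Vale.Agent.P092.H515.St (IsLattice)

section prob

variable {E : Type} [Group E] [TopologicalSpace E]

/-- The invariant probability measure. -/
theorem exists_prob {Λ : Subgroup E} (h : IsLattice Λ) [MeasurableSpace (E ⧸ Λ)]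
    [BorelSpace (E ⧸ Λ)] :
    ∃ ν : Measure (E ⧸ Λ), IsProbabilityMeasure ν ∧ ∀ g : E, ∀ s : Set (E ⧸ Λ), MeasurableSet s →
      ν ((fun x => g • x) ⁻¹' s) = ν s := by
  have hb : (inferInstance : MeasurableSpace (E ⧸ Λ)) = borel (E ⧸ Λ) := BorelSpace.measurable_eq
  obtain ⟨ν, h0, hf, hi⟩ := h.covol
  revert ν
  rw [← hb]
  intro ν h0 hf hi
  have h0' : ν univ ≠ 0 := fun h => h0 (Measure.measure_univ_eq_zero.1 h)
  refine ⟨(ν univ)⁻¹ • ν, ⟨?_⟩, fun g s hs => ?_⟩
  · rw [Measure.smul_apply, smul_eq_mul, ENNReal.inv_mul_cancel h0' hf.ne]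
  · rw [Measure.smul_apply, Measure.smul_apply, hi g s hs]

end prob

section full

variable {E : Type} [Group E] [TopologicalSpace E] [IsTopologicalGroup E]
  [SecondCountableTopology E]

/-- An invariant probability measure charges open sets. -/
theorem pos_of_isOpen {Λ : Subgroup E} [MeasurableSpace (E ⧸ Λ)] [BorelSpace (E ⧸ Λ)]
    (ν : Measure (E ⧸ Λ)) [IsProbabilityMeasure ν]
    (hν : ∀ g : E, ∀ s : Set (E ⧸ Λ), MeasurableSet s → ν ((fun x => g • x) ⁻¹' s) = ν s)
    {O : Set (E ⧸ Λ)} (hO : IsOpen O) (hne : O.Nonempty) : ν O ≠ 0 := by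
  intro h0
  have hcov : (⋃ i : ℕ, (fun x : E ⧸ Λ => (TopologicalSpace.denseSeq E i) • x) ⁻¹' O) = univ := by
    refine eq_univ_of_forall fun x => ?_
    obtain ⟨y, hy⟩ := hne
    obtain ⟨a, rfl⟩ := QuotientGroup.mk_surjective x
    obtain ⟨b, rfl⟩ := QuotientGroup.mk_surjective y
    have ho : IsOpen ((fun g : E => ((g * a : E) : E ⧸ Λ)) ⁻¹' O) :=
      hO.preimage (continuous_quotient_mk'.comp (by fun_prop))
    obtain ⟨i, hi⟩ := (TopologicalSpace.denseRange_denseSeq E).exists_mem_open ho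
      ⟨b * a⁻¹, by simpa using hy⟩
    exact mem_iUnion.2 ⟨i, hi⟩
  have h1 : ν univ ≤ ∑' i : ℕ, ν ((fun x : E ⧸ Λ => (TopologicalSpace.denseSeq E i) • x) ⁻¹' O) := by
    rw [← hcov]; exact measure_iUnion_le _
  have h2 : ∀ i : ℕ, ν ((fun x : E ⧸ Λ => (TopologicalSpace.denseSeq E i) • x) ⁻¹' O) = 0 :=
    fun i => by rw [hν _ _ hO.measurableSet, h0]
  simp only [h2, tsum_zero, measure_univ] at h1
  exact absurd h1 (by simp)

end full

section lat

variable {E : Type} [Group E] [TopologicalSpace E] [IsTopologicalGroup E] [LocallyCompactSpace E]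
  [SecondCountableTopology E] [T2Space E] [MeasurableSpace E] [BorelSpace E]

/-- The invariant probability of `E ⧸ Λ`, transported to `E` by `x ↦ s(x)⁻¹`. -/
noncomputable def lm (Λ : Subgroup E) [DiscreteTopology Λ] [MeasurableSpace (E ⧸ Λ)]
    [BorelSpace (E ⧸ Λ)] (ν : Measure (E ⧸ Λ)) : Measure E :=
  ν.map fun x => (H85.sec Λ x)⁻¹

theorem lm_meas (Λ : Subgroup E) [DiscreteTopology Λ] [MeasurableSpace (E ⧸ Λ)]
    [BorelSpace (E ⧸ Λ)] : Measurable fun x : E ⧸ Λ => (H85.sec Λ x)⁻¹ := (H85.sec_meas Λ).inv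

/-- A left invariant function as a function on `E ⧸ Λ`. -/
def down {X : Type*} (Λ : Subgroup E) (F : E → X) (hF : ∀ v : Λ, ∀ h, F (v * h) = F h) :
    E ⧸ Λ → X :=
  Quotient.lift (fun g => F g⁻¹) (by
    intro a b hab
    have hab' : a⁻¹ * b ∈ Λ := QuotientGroup.leftRel_apply.1 hab
    have := hF ⟨(a⁻¹ * b)⁻¹, Λ.inv_mem hab'⟩ a⁻¹
    show F a⁻¹ = F b⁻¹
    rw [← this]
    congr 1
    group)

theorem down_mk {X : Type*} (Λ : Subgroup E) (F : E → X) (hF : ∀ v : Λ, ∀ h, F (v * h) = F h)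
    (g : E) : down Λ F hF (g : E ⧸ Λ) = F g⁻¹ := rfl

theorem down_sec {X : Type*} (Λ : Subgroup E) [DiscreteTopology Λ] [MeasurableSpace (E ⧸ Λ)]
    [BorelSpace (E ⧸ Λ)] (F : E → X) (hF : ∀ v : Λ, ∀ h, F (v * h) = F h) (x : E ⧸ Λ) :
    F (H85.sec Λ x)⁻¹ = down Λ F hF x := by
  rw [← down_mk Λ F hF, H85.sec_coe]

theorem continuous_down {X : Type*} [TopologicalSpace X] (Λ : Subgroup E) (F : E → X)
    (hF : ∀ v : Λ, ∀ h, F (v * h) = F h) (hc : Continuous F) : Continuous (down Λ F hF) :=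
  Continuous.quotient_lift (hc.comp continuous_inv) _

theorem lat_of_prob (Λ : Subgroup E) [DiscreteTopology Λ] [MeasurableSpace (E ⧸ Λ)]
    [BorelSpace (E ⧸ Λ)] (ν : Measure (E ⧸ Λ)) [IsProbabilityMeasure ν]
    (hν : ∀ g : E, ∀ s : Set (E ⧸ Λ), MeasurableSet s → ν ((fun x => g • x) ⁻¹' s) = ν s) :
    PA.Lat Λ.subtype (lm Λ ν) where
  prob := Measure.isProbabilityMeasure_map (lm_meas Λ).aemeasurable
  inv := by
    intro F hc _ hF k
    have hF' : ∀ v : Λ, ∀ h, F (v * h) = F h := hF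
    have h1 : ∫ h, F (h * k) ∂(lm Λ ν) = ∫ x, F ((H85.sec Λ x)⁻¹ * k) ∂ν :=
      integral_map (lm_meas Λ).aemeasurable (by
        exact (hc.comp (continuous_mul_const k)).stronglyMeasurable.aestronglyMeasurable)
    have h2 : ∫ h, F h ∂(lm Λ ν) = ∫ x, F (H85.sec Λ x)⁻¹ ∂ν :=
      integral_map (lm_meas Λ).aemeasurable hc.stronglyMeasurable.aestronglyMeasurable
    have h3 : ∀ x : E ⧸ Λ, F ((H85.sec Λ x)⁻¹ * k) = down Λ F hF' (k⁻¹ • x) := by
      intro x
      have : k⁻¹ • x = ((k⁻¹ * H85.sec Λ x : E) : E ⧸ Λ) := by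
        conv_lhs => rw [← H85.sec_coe Λ x]
        rfl
      rw [this, down_mk]
      congr 1
      group
    have hmp : MeasurePreserving (fun x : E ⧸ Λ => k⁻¹ • x) ν ν := by
      refine ⟨H85.smul_meas Λ k⁻¹, Measure.ext fun s hs => ?_⟩
      rw [Measure.map_apply (H85.smul_meas Λ k⁻¹) hs, hν _ _ hs]
    rw [h1, h2]
    simp only [h3, down_sec Λ F hF']
    exact hmp.integral_comp' (f := (MeasurableEquiv.smul k⁻¹ : E ⧸ Λ ≃ᵐ E ⧸ Λ)) _
  faith := by
    intro F hc hb h0 hF hint h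
    have hF' : ∀ v : Λ, ∀ h, F (v * h) = F h := hF
    obtain ⟨C, hC⟩ := hb
    have h2 : ∫ h, F h ∂(lm Λ ν) = ∫ x, F (H85.sec Λ x)⁻¹ ∂ν :=
      integral_map (lm_meas Λ).aemeasurable hc.stronglyMeasurable.aestronglyMeasurable
    have hdc := continuous_down Λ F hF' hc
    have hbd : ∀ x, ‖down Λ F hF' x‖ ≤ C := by
      intro x
      obtain ⟨g, rfl⟩ := QuotientGroup.mk_surjective x
      rw [down_mk, Real.norm_eq_abs, abs_of_nonneg (h0 _)]
      exact hC _
    have hi : Integrable (down Λ F hF') ν :=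
      Integrable.of_bound (hdc.measurable.aestronglyMeasurable) C (Eventually.of_forall hbd)
    have hnn : ∀ x, 0 ≤ down Λ F hF' x := by
      intro x
      obtain ⟨g, rfl⟩ := QuotientGroup.mk_surjective x
      exact h0 _
    have h3 : ∫ x, down Λ F hF' x ∂ν = 0 := by
      rw [← hint, h2]
      simp only [down_sec Λ F hF']
    have h4 := (integral_eq_zero_iff_of_nonneg hnn hi).1 h3
    by_contra hne
    have hO : IsOpen ((down Λ F hF') ⁻¹' {0}ᶜ) := isOpen_compl_singleton.preimage hdc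
    have hne' : ((down Λ F hF') ⁻¹' {0}ᶜ).Nonempty :=
      ⟨((h⁻¹ : E) : E ⧸ Λ), by
        show down Λ F hF' ((h⁻¹ : E) : E ⧸ Λ) ∈ ({0}ᶜ : Set ℝ)
        rw [down_mk, inv_inv]
        exact hne⟩
    exact pos_of_isOpen ν hν hO hne' h4
  fin := by
    intro C hC
    have hcl : IsClosed (Λ : Set E) := Subgroup.isClosed_of_discrete
    have hemb : IsClosedEmbedding ((↑) : Λ → E) := hcl.isClosedEmbedding_subtypeVal
    have h2 : IsCompact (((↑) : Λ → E) ⁻¹' C) := hemb.isCompact_preimage hC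
    exact h2.finite_of_discrete

theorem exists_lat (Λ : Subgroup E) (hΛ : IsLattice Λ) : ∃ m : Measure E, PA.Lat Λ.subtype m := by
  haveI := hΛ.disc
  borelize (E ⧸ Λ)
  obtain ⟨ν, h1, h2⟩ := exists_prob hΛ
  exact ⟨_, lat_of_prob Λ ν h2⟩

end lat

section image

variable {E' E : Type} [Group E'] [TopologicalSpace E'] [IsTopologicalGroup E'] [T2Space E']
  [Group E] [TopologicalSpace E] [IsTopologicalGroup E] [T2Space E] [LocallyCompactSpace E]

/-- The map of the quotients. -/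
def qmap (φ : E' →* E) (Γ : Subgroup E') : E' ⧸ Γ → E ⧸ Γ.map φ :=
  Quotient.map' φ (by
    intro a b hab
    have hab' : a⁻¹ * b ∈ Γ := QuotientGroup.leftRel_apply.1 hab
    refine QuotientGroup.leftRel_apply.2 ⟨a⁻¹ * b, hab', by simp⟩)

theorem qmap_mk (φ : E' →* E) (Γ : Subgroup E') (a : E') :
    qmap φ Γ (a : E' ⧸ Γ) = (φ a : E ⧸ Γ.map φ) := rfl

theorem qmap_smul (φ : E' →* E) (Γ : Subgroup E') (g : E') (x : E' ⧸ Γ) :
    qmap φ Γ (g • x) = φ g • qmap φ Γ x := by
  obtain ⟨a, rfl⟩ := QuotientGroup.mk_surjective x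
  show qmap φ Γ ((g * a : E') : E' ⧸ Γ) = ((φ g * φ a : E) : E ⧸ Γ.map φ)
  rw [qmap_mk, map_mul]

/-- The image of a lattice under a proper surjective homomorphism is a lattice. -/
theorem isLattice_map {φ : E' →* E} (hφ : IsProperMap φ) (hs : Function.Surjective φ)
    {Γ : Subgroup E'} (hΓ : IsLattice Γ) : IsLattice (Γ.map φ) where
  disc := by
    haveI := hΓ.disc
    obtain ⟨C, hC, hC1⟩ := exists_compact_mem_nhds (1 : E)
    have hcl : IsClosed (Γ : Set E') := Subgroup.isClosed_of_discrete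
    have hfin : {γ : Γ | φ γ ∈ C}.Finite := by
      have hemb : IsClosedEmbedding ((↑) : Γ → E') := hcl.isClosedEmbedding_subtypeVal
      exact (hemb.isCompact_preimage (hφ.isCompact_preimage hC)).finite_of_discrete
    set F : Set E := (fun γ : Γ => φ γ) '' {γ : Γ | φ γ ∈ C} with hF
    have hFf : F.Finite := hfin.image _
    have h1 : (interior C ∩ (F \ {1})ᶜ) ∈ 𝓝 (1 : E) := by
      refine inter_mem (interior_mem_nhds.2 hC1) ?_
      exact ((hFf.subset diff_subset).isClosed.isOpen_compl).mem_nhds (by simp)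
    refine discreteTopology_of_isOpen_singleton_one ?_
    rw [isOpen_iff_mem_nhds]
    intro y hy
    rw [mem_singleton_iff] at hy
    subst hy
    rw [mem_nhds_subtype]
    refine ⟨_, h1, ?_⟩
    rintro ⟨y, γ, hγ, rfl⟩ ⟨hy1, hy2⟩
    refine mem_singleton_iff.2 (Subtype.ext ?_)
    show φ γ = 1
    by_contra hne
    have hy3 : φ γ ∈ C := interior_subset (s := C) hy1
    exact hy2 ⟨⟨⟨γ, hγ⟩, hy3, rfl⟩, hne⟩
  covol := by
    obtain ⟨ν, h0, hf, hi⟩ := hΓ.covol
    letI : MeasurableSpace (E' ⧸ Γ) := borel _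
    haveI : BorelSpace (E' ⧸ Γ) := ⟨rfl⟩
    letI : MeasurableSpace (E ⧸ Γ.map φ) := borel _
    haveI : BorelSpace (E ⧸ Γ.map φ) := ⟨rfl⟩
    have hqc : Continuous (qmap φ Γ) := Continuous.quotient_map' hφ.continuous _
    have hqm : Measurable (qmap φ Γ) := hqc.measurable
    refine ⟨ν.map (qmap φ Γ), ?_, ?_, ?_⟩
    · intro hz
      have := congrArg (fun m : Measure (E ⧸ Γ.map φ) => m univ) hz
      simp only [Measure.map_apply hqm MeasurableSet.univ, preimage_univ, Measure.coe_zero,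
        Pi.zero_apply] at this
      exact h0 (Measure.measure_univ_eq_zero.1 this)
    · rw [Measure.map_apply hqm MeasurableSet.univ, preimage_univ]
      exact hf
    · intro g s hs'
      obtain ⟨g', rfl⟩ := hs g
      have hsm : Measurable fun x : E ⧸ Γ.map φ => φ g' • x := by
        have : Continuous fun x : E ⧸ Γ.map φ => φ g' • x := continuous_const_smul _
        exact this.measurable
      rw [Measure.map_apply hqm (hsm hs'), Measure.map_apply hqm hs', ← hi g' _ (hqm hs')]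
      congr 1
      ext x
      simp only [mem_preimage, qmap_smul]

end image

end Vale.Agent.P092.H259
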