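import Vale.Agent.P092.H259.Seq
import Vale.Agent.P092.H971.GF2

/-!
P092 (helper259), [A-GRP]: the instance `SL_N(k)`, `k` a local field.
-/

set_option linter.all false

open MeasureTheory Filter Topology Set Matrix

namespace Vale.Agent.P092.H259

open Vale.Agent.P092.H515.St

section sl

variable (N : ℕ) (k : Type) [NontriviallyNormedField k]

/-- The facts on `SL_N(k)`. -/
theorem cf_SL : Cf (SpecialLinearGroup (Fin N) k) where
  fin := by
    by_cases hN : N = 0
    · subst hN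
      infer_instance
    · have h1 : (Polynomial.nthRootsFinset N (1 : k) : Set k).Finite := Finset.finite_toSet _
      refine Set.Finite.to_subtype (Set.Finite.of_finite_image
        (f := fun g : SpecialLinearGroup (Fin N) k => (g : Matrix (Fin N) (Fin N) k))
        (((h1.image (Matrix.scalar (Fin N))).subset ?_)) (Subtype.val_injective.injOn))
      rintro _ ⟨g, hg, rfl⟩
      obtain ⟨r, hr, hg⟩ := Matrix.SpecialLinearGroup.mem_center_iff.1 hg
      refine ⟨r, ?_, hg⟩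
      rw [Fintype.card_fin] at hr
      exact (Polynomial.mem_nthRootsFinset (Nat.pos_of_ne_zero hN) 1).2 hr
  cen := fun g hg => H971.mem_center_of_isOpen_centralizer hg

theorem isClosedEmbedding_SL :
    IsClosedEmbedding fun g : SpecialLinearGroup (Fin N) k => (g : Matrix (Fin N) (Fin N) k) := by
  have hc : IsClosed {A : Matrix (Fin N) (Fin N) k | A.det = 1} :=
    isClosed_eq continuous_id.matrix_det continuous_const
  exact hc.isClosedEmbedding_subtypeVal

theorem lc_SL [ProperSpace k] : LocallyCompactSpace (SpecialLinearGroup (Fin N) k) := by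
  haveI : LocallyCompactSpace (Matrix (Fin N) (Fin N) k) :=
    inferInstanceAs (LocallyCompactSpace (Fin N → Fin N → k))
  exact (isClosedEmbedding_SL N k).locallyCompactSpace

theorem sc_SL [ProperSpace k] : SecondCountableTopology (SpecialLinearGroup (Fin N) k) := by
  haveI : SecondCountableTopology k := secondCountable_of_proper
  haveI : SecondCountableTopology (Matrix (Fin N) (Fin N) k) :=
    inferInstanceAs (SecondCountableTopology (Fin N → Fin N → k))
  exact (isClosedEmbedding_SL N k).isEmbedding.secondCountableTopology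

end sl

/-- The output of the block [A-GRP] for one lattice. -/
structure GrpOut {E₁ E₂ : Type} [Group E₁] [TopologicalSpace E₁] [Group E₂] [TopologicalSpace E₂]
    [MeasurableSpace (PQ E₁)] [MeasurableSpace (PQ E₂)] (Γ : Subgroup (E₁ × E₂)) : Prop where
  cnt : Countable Γ
  pl₁ : PA.Pl (p₁ Γ)
  pl₂ : PA.Pl (p₂ Γ)
  fin : ∀ C : Set (PQ E₁ × PQ E₂), IsCompact C → {γ : Γ | (p₁ Γ γ, p₂ Γ γ) ∈ C}.Finite
  img : IsLattice (Γ.map (pp E₁ E₂))
  lat : ∃ m : Measure (PQ E₁ × PQ E₂), PA.Lat ((p₁ Γ).prod (p₂ Γ)) m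
  seq₁ : ∃ w : ℕ → Γ, Tendsto (p₁ Γ ∘ w) atTop (𝓝 1) ∧ Tendsto (p₂ Γ ∘ w) atTop (cocompact (PQ E₂))
  seq₂ : ∃ w : ℕ → Γ, Tendsto (p₂ Γ ∘ w) atTop (𝓝 1) ∧ Tendsto (p₁ Γ ∘ w) atTop (cocompact (PQ E₁))

theorem grpOut {E₁ E₂ : Type} [Group E₁] [TopologicalSpace E₁] [IsTopologicalGroup E₁]
    [Group E₂] [TopologicalSpace E₂] [IsTopologicalGroup E₂] [T2Space E₁] [T2Space E₂]
    [LocallyCompactSpace E₁] [LocallyCompactSpace E₂] [SecondCountableTopology E₁]
    [SecondCountableTopology E₂] [MeasurableSpace (PQ E₁)] [BorelSpace (PQ E₁)]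
    [MeasurableSpace (PQ E₂)] [BorelSpace (PQ E₂)]
    (H₁ : Cf E₁) (H₂ : Cf E₂) (Γ : Subgroup (E₁ × E₂)) (hΓ : IsLattice Γ) (hicc : Icc Γ)
    (hn : ∃ v : Γ, v ≠ 1) (h1 : DenseRange fun γ : Γ => (γ : E₁ × E₂).1)
    (h2 : DenseRange fun γ : Γ => (γ : E₁ × E₂).2) : GrpOut Γ := by
  haveI := hΓ.disc
  have a1 := pl₁ H₁ H₂ Γ hΓ.disc hicc h1 h2
  have a2 := pl₂ H₁ H₂ Γ hΓ.disc hicc h1 h2
  have a3 : ∀ C : Set (PQ E₁ × PQ E₂), IsCompact C → {γ : Γ | (p₁ Γ γ, p₂ Γ γ) ∈ C}.Finite :=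
    fun C hC => finite_pp H₁ H₂ Γ hC
  exact ⟨countable_of_disc Γ, a1, a2, a3, isLattice_pp H₁ H₂ hΓ, exists_lat_places H₁ H₂ hΓ a1.inj,
    exists_seq a1 hn a3, exists_seq' a2 hn a3⟩

/-- The block [A-GRP] for `SL_m(k) × SL_n(l)`. -/
theorem grp_SL {m n : ℕ} {k l : Type} [NontriviallyNormedField k] [NontriviallyNormedField l]
    [ProperSpace k] [ProperSpace l]
    [MeasurableSpace (PQ (SpecialLinearGroup (Fin m) k))]
    [BorelSpace (PQ (SpecialLinearGroup (Fin m) k))]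
    [MeasurableSpace (PQ (SpecialLinearGroup (Fin n) l))]
    [BorelSpace (PQ (SpecialLinearGroup (Fin n) l))]
    (Γ : Subgroup (SpecialLinearGroup (Fin m) k × SpecialLinearGroup (Fin n) l))
    (hΓ : IsLattice Γ) (hicc : Icc Γ) (hn : ∃ v : Γ, v ≠ 1)
    (h1 : DenseRange fun γ : Γ =>
      (γ : SpecialLinearGroup (Fin m) k × SpecialLinearGroup (Fin n) l).1)
    (h2 : DenseRange fun γ : Γ =>
      (γ : SpecialLinearGroup (Fin m) k × SpecialLinearGroup (Fin n) l).2) : GrpOut Γ := by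
  haveI := lc_SL m k
  haveI := lc_SL n l
  haveI := sc_SL m k
  haveI := sc_SL n l
  exact grpOut (cf_SL m k) (cf_SL n l) Γ hΓ hicc hn h1 h2

/-- `SL_N(k)` is nontrivial for `N ≥ 2`. -/
theorem nontrivial_SL {N : ℕ} (hN : 2 ≤ N) (k : Type) [Field k] :
    Nontrivial (SpecialLinearGroup (Fin N) k) := by
  have h01 : (⟨0, by omega⟩ : Fin N) ≠ ⟨1, by omega⟩ := by
    intro h
    exact absurd (congrArg Fin.val h) (by simp)
  refine ⟨⟨⟨Matrix.transvection ⟨0, by omega⟩ ⟨1, by omega⟩ 1,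
    Matrix.det_transvection_of_ne _ _ h01 _⟩, 1, ?_⟩⟩
  intro h
  have h2 := congrArg (fun g : SpecialLinearGroup (Fin N) k =>
    (g : Matrix (Fin N) (Fin N) k) ⟨0, by omega⟩ ⟨1, by omega⟩) h
  simp [Matrix.transvection, Matrix.one_apply, Matrix.single_apply] at h2

end Vale.Agent.P092.H259
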