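import Vale.Agent.P092.H259.Lat

/-!
P092 (helper259), [A-GRP], [A-LATQ]: sequences going to `1` at one place and to infinity at the
other; the lattice structure for the image in the product of the quotients by the centres.
-/

set_option linter.all false

open MeasureTheory Filter Topology Set

namespace Vale.Agent.P092.H259

open Vale.Agent.P092.H515.St

section seq

/-- Infinitely many elements near `1`. -/
theorem infinite_near {Λ H : Type} [Group Λ] [Group H] [TopologicalSpace H] [IsTopologicalGroup H]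
    [T1Space H] {q : Λ →* H} (hq : PA.Pl q) (hn : ∃ v : Λ, v ≠ 1) {U : Set H}
    (hU : U ∈ 𝓝 (1 : H)) : {v : Λ | q v ∈ U}.Infinite := by
  obtain ⟨g, hg⟩ := hn
  intro hfin
  refine infinite_of_pl hq g hg U hU ((hfin.image fun h => h * g * h⁻¹).subset ?_)
  rintro _ ⟨h, hh, rfl⟩
  exact ⟨h, hh, rfl⟩

/-- A place of a nontrivial group. -/
theorem exists_ne_one {Λ H : Type} [Group Λ] [Group H] [TopologicalSpace H] [T1Space H]
    [Nontrivial H] {q : Λ →* H} (hq : DenseRange q) : ∃ v : Λ, v ≠ 1 := by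
  by_contra hcon
  have hcon' : ∀ v : Λ, v = 1 := fun v => by
    by_contra h
    exact hcon ⟨v, h⟩
  have h1 : range q ⊆ {1} := by
    rintro _ ⟨v, rfl⟩
    rw [hcon' v, map_one]
    exact mem_singleton 1
  obtain ⟨x, hx⟩ := exists_ne (1 : H)
  have h2 : x ∈ closure (range q) := hq x
  have h3 : closure (range q) ⊆ {1} := closure_minimal h1 isClosed_singleton
  exact hx (mem_singleton_iff.1 (h3 h2))

/-- There is a sequence which goes to `1` at the first place and to infinity at the second. -/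
theorem exists_seq {Λ H₁ H₂ : Type} [Group Λ] [Group H₁] [TopologicalSpace H₁]
    [IsTopologicalGroup H₁] [T2Space H₁] [LocallyCompactSpace H₁] [FirstCountableTopology H₁]
    [Group H₂] [TopologicalSpace H₂] [LocallyCompactSpace H₂] [SecondCountableTopology H₂]
    {q₁ : Λ →* H₁} {q₂ : Λ →* H₂} (h₁ : PA.Pl q₁) (hn : ∃ v : Λ, v ≠ 1)
    (hp : ∀ C : Set (H₁ × H₂), IsCompact C → {v | (q₁ v, q₂ v) ∈ C}.Finite) :
    ∃ w : ℕ → Λ, Tendsto (q₁ ∘ w) atTop (𝓝 1) ∧ Tendsto (q₂ ∘ w) atTop (cocompact H₂) := by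
  obtain ⟨U, hU⟩ := (𝓝 (1 : H₁)).exists_antitone_basis
  obtain ⟨C, hC, hC1⟩ := exists_compact_mem_nhds (1 : H₁)
  let K : CompactExhaustion H₂ := default
  have key : ∀ n : ℕ, ∃ v : Λ, q₁ v ∈ U n ∧ q₂ v ∉ K n := by
    intro n
    by_contra hcon
    have hcon' : ∀ v : Λ, q₁ v ∈ U n → q₂ v ∈ K n := fun v hv => by
      by_contra h
      exact hcon ⟨v, hv, h⟩
    have h2 : U n ∩ C ∈ 𝓝 (1 : H₁) := inter_mem (hU.1.mem_of_mem trivial) hC1
    refine infinite_near h₁ hn h2 ((hp (C ×ˢ K n) (hC.prod (K.isCompact n))).subset ?_)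
    intro v hv
    exact ⟨hv.2, hcon' v hv.1⟩
  choose w hw1 hw2 using key
  refine ⟨w, hU.tendsto hw1, ?_⟩
  rw [hasBasis_cocompact.tendsto_right_iff]
  intro D hD
  obtain ⟨n, hn'⟩ := K.exists_superset_of_isCompact hD
  filter_upwards [eventually_ge_atTop n] with m hm hmem
  exact hw2 m (K.subset hm (hn' hmem))

/-- The same with the places exchanged. -/
theorem exists_seq' {Λ H₁ H₂ : Type} [Group Λ] [Group H₁] [TopologicalSpace H₁]
    [LocallyCompactSpace H₁] [SecondCountableTopology H₁]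
    [Group H₂] [TopologicalSpace H₂] [IsTopologicalGroup H₂] [T2Space H₂] [LocallyCompactSpace H₂]
    [FirstCountableTopology H₂]
    {q₁ : Λ →* H₁} {q₂ : Λ →* H₂} (h₂ : PA.Pl q₂) (hn : ∃ v : Λ, v ≠ 1)
    (hp : ∀ C : Set (H₁ × H₂), IsCompact C → {v | (q₁ v, q₂ v) ∈ C}.Finite) :
    ∃ w : ℕ → Λ, Tendsto (q₂ ∘ w) atTop (𝓝 1) ∧ Tendsto (q₁ ∘ w) atTop (cocompact H₁) := by
  refine exists_seq h₂ hn fun C hC => ?_
  have h1 := hp (Prod.swap ⁻¹' C) (by
    rw [← image_swap_eq_preimage_swap]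
    exact hC.image continuous_swap)
  exact h1

end seq

section lat

/-- Transport of `Lat` along an isomorphism of the discrete group. -/
theorem lat_equiv {Λ Λ' E : Type} [Group Λ] [Group Λ'] [Group E] [TopologicalSpace E]
    [MeasurableSpace E] {q : Λ →* E} {m : Measure E} (h : PA.Lat q m) {q' : Λ' →* E}
    (hi : Function.Injective q') (hr : q'.range = q.range) : PA.Lat q' m where
  prob := h.prob
  inv := by
    intro F hF hb hinv k
    refine h.inv F hF hb (fun v x => ?_) k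
    have : q v ∈ q'.range := by rw [hr]; exact ⟨v, rfl⟩
    obtain ⟨v', hv'⟩ := this
    rw [← hv']
    exact hinv v' x
  faith := by
    intro F hF hb h0 hinv hI x
    refine h.faith F hF hb h0 (fun v x => ?_) hI x
    have : q v ∈ q'.range := by rw [hr]; exact ⟨v, rfl⟩
    obtain ⟨v', hv'⟩ := this
    rw [← hv']
    exact hinv v' x
  fin := by
    intro C hC
    have h1 := (h.fin C hC).image q
    refine Set.Finite.of_finite_image (f := q') (h1.subset ?_) hi.injOn
    rintro _ ⟨v, hv, rfl⟩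
    have : q' v ∈ q.range := by rw [← hr]; exact ⟨v, rfl⟩
    obtain ⟨v', hv'⟩ := this
    exact ⟨v', by rw [mem_setOf_eq, hv']; exact hv, hv'⟩

variable {E₁ E₂ : Type} [Group E₁] [TopologicalSpace E₁] [IsTopologicalGroup E₁]
  [Group E₂] [TopologicalSpace E₂] [IsTopologicalGroup E₂] [T2Space E₁] [T2Space E₂]
  [LocallyCompactSpace E₁] [LocallyCompactSpace E₂]

/-- The image of the lattice in the product of the quotients by the centres is a lattice. -/
theorem isLattice_pp (H₁ : Cf E₁) (H₂ : Cf E₂) {Γ : Subgroup (E₁ × E₂)} (hΓ : IsLattice Γ) :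
    IsLattice (Γ.map (pp E₁ E₂)) := by
  refine isLattice_map (φ := pp E₁ E₂) ?_ ?_ hΓ
  · exact (isProperMap_pq H₁.fin).prodMap (isProperMap_pq H₂.fin)
  · exact pq_surj.prodMap pq_surj

/-- The two places of a lattice in a product carry an invariant probability measure. -/
theorem exists_lat_places [SecondCountableTopology E₁] [SecondCountableTopology E₂]
    [MeasurableSpace (PQ E₁ × PQ E₂)] [BorelSpace (PQ E₁ × PQ E₂)]
    (H₁ : Cf E₁) (H₂ : Cf E₂) {Γ : Subgroup (E₁ × E₂)}
    (hΓ : IsLattice Γ) (hinj : Function.Injective (p₁ Γ)) :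
    ∃ m : Measure (PQ E₁ × PQ E₂), PA.Lat ((p₁ Γ).prod (p₂ Γ)) m := by
  obtain ⟨m, hm⟩ := exists_lat (Γ.map (pp E₁ E₂)) (isLattice_pp H₁ H₂ hΓ)
  refine ⟨m, lat_equiv hm ?_ ?_⟩
  · intro a b hab
    exact hinj (congrArg Prod.fst hab)
  · ext x
    simp only [MonoidHom.mem_range]
    constructor
    · rintro ⟨v, rfl⟩
      exact ⟨⟨pp E₁ E₂ v, v, v.2, rfl⟩, rfl⟩
    · rintro ⟨⟨y, v, hv, rfl⟩, rfl⟩
      exact ⟨⟨v, hv⟩, rfl⟩

/-- A discrete subgroup of a second countable group is countable. -/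
theorem countable_of_disc {E : Type} [Group E] [TopologicalSpace E] [SecondCountableTopology E]
    (Γ : Subgroup E) [DiscreteTopology Γ] : Countable Γ :=
  TopologicalSpace.separableSpace_iff_countable.1 inferInstance

end lat

end Vale.Agent.P092.H259
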