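import Vale.Agent.P092.H259.SLF
import Vale.Agent.P092.H714.Fin2
import Vale.Agent.P092.H387.StA

/-!
P092 (helper259): from the statement with an embedding `i : Γ →* G₁ × G₂` to the subgroup `i.range`.
-/

set_option linter.all false

open MeasureTheory Filter Topology Set
open scoped InnerProductSpace

namespace Vale.Agent.P092.H259

open Vale.Agent.P092.PA Vale.Agent.P092.H160

section tran

variable {Γ Γ' Λ Λ' K : Type} [Group Γ] [Group Γ'] [Group Λ] [Group Λ'] [NormedAddCommGroup K]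
  [InnerProductSpace ℂ K] [CompleteSpace K]

theorem regRep_tr (e : Γ' ≃* Γ) {π : Γ →* (K →L[ℂ] K)} {ξ : K} (h : RegRep π ξ) :
    RegRep (π.comp e.toMonoidHom) ξ where
  adj := fun g => by
    show ContinuousLinearMap.adjoint (π (e g)) = π (e g⁻¹)
    rw [h.adj, map_inv e]
  norm_one := h.norm_one
  inner_zero := fun g hg => h.inner_zero (e g) fun he => hg (e.injective (by rw [he, map_one]))
  total := fun v hv => h.total v fun g => by
    have := hv (e.symm g)
    rw [MonoidHom.comp_apply] at this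
    have h2 : e.toMonoidHom (e.symm g) = g := e.apply_symm_apply g
    rw [h2] at this
    exact this

/-- Transport of a picture along isomorphisms of the groups. -/
def picTr (D : Pic Γ Λ K) (e : Γ' ≃* Γ) (f : Λ' ≃* Λ) : Pic Γ' Λ' K where
  ρ := D.ρ.comp e.toMonoidHom
  V := D.V.comp f.toMonoidHom
  Ω := D.Ω
  hρ := regRep_tr e D.hρ
  hV := regRep_tr f D.hV
  comm := fun g v => D.comm (e g) (f v)

theorem can_of_tr (D : Pic Γ Λ K) (e : Γ' ≃* Γ) (f : Λ' ≃* Λ) (h : Can (picTr D e f)) : Can D := by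
  obtain ⟨ζ, δ, χ, h1, h2, h3, h4, h5⟩ := h
  refine ⟨ζ, fun g => f (δ (e.symm g)), fun g => χ (e.symm g), h1, ?_, ?_, fun g => h4 _, ?_⟩
  · intro v hv
    have := h2 (f.symm v) fun he => hv (f.symm.injective (by rw [he, map_one]))
    have h6 : (picTr D e f).V (f.symm v) = D.V v :=
      congrArg D.V (f.apply_symm_apply v)
    rw [h6] at this
    exact this
  · exact f.bijective.comp (h3.comp e.symm.bijective)
  · intro g
    have := h5 (e.symm g)
    have h6 : (picTr D e f).ρ (e.symm g) = D.ρ g := congrArg D.ρ (e.apply_symm_apply g)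
    rw [h6] at this
    exact this

theorem icc_tr (e : Γ' ≃* Γ)
    (h : ∀ g : Γ, g ≠ 1 → Set.Infinite {y : Γ | ∃ h, y = h * g * h⁻¹}) :
    ∀ g : Γ', g ≠ 1 → Set.Infinite {y : Γ' | ∃ h, y = h * g * h⁻¹} := by
  intro g hg hfin
  refine h (e g) (fun he => hg (e.injective (by rw [he, map_one]))) ((hfin.image e).subset ?_)
  rintro _ ⟨x, rfl⟩
  exact ⟨e.symm x * g * (e.symm x)⁻¹, ⟨e.symm x, rfl⟩, by simp⟩

end tran

/-- Reduction of canonicity to pictures of subgroups. -/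
theorem canonical_of_sub {Γ Λ A B : Type} [Group Γ] [Group Λ] [Group A] [Group B]
    (i : Γ →* A) (hi : Function.Injective i) (j : Λ →* B) (hj : Function.Injective j)
    (hΓ : ∀ g : Γ, g ≠ 1 → Set.Infinite {y : Γ | ∃ h, y = h * g * h⁻¹})
    (H : ∀ {K : Type} [NormedAddCommGroup K] [InnerProductSpace ℂ K] [CompleteSpace K]
      (D : Pic i.range j.range K), Can D) (θ : St.StarIso Γ Λ) : St.Canonical θ :=
  H714.Fin.canonical_of_pics hΓ (fun D => can_of_tr D (MonoidHom.ofInjective hi).symm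
    (MonoidHom.ofInjective hj).symm (H _)) θ

section irr

open Vale.Agent.P092.SR.St

variable {Γ E₁ E₂ : Type} [Group Γ] [Group E₁] [Group E₂] [TopologicalSpace E₁]
    [TopologicalSpace E₂] {i : Γ →* E₁ × E₂}

theorem icc_range (hi : Function.Injective i) (h : ICC Γ) : Icc i.range :=
  icc_tr (MonoidHom.ofInjective hi).symm h

theorem dense_fst (h : IrrLattice i) : DenseRange fun γ : i.range => (γ : E₁ × E₂).1 := by
  have h1 := h.dense₁
  refine h1.mono ?_
  rintro _ ⟨g, rfl⟩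
  exact ⟨⟨i g, g, rfl⟩, rfl⟩

theorem dense_snd (h : IrrLattice i) : DenseRange fun γ : i.range => (γ : E₁ × E₂).2 := by
  have h1 := h.dense₂
  refine h1.mono ?_
  rintro _ ⟨g, rfl⟩
  exact ⟨⟨i g, g, rfl⟩, rfl⟩

end irr

/-- The theorem for subgroups gives the theorem for `LocalProductLattice`. -/
theorem final_of_sub
    (H : ∀ (k₁ k₂ l₁ l₂ : Type) [NontriviallyNormedField k₁] [NontriviallyNormedField k₂]
      [NontriviallyNormedField l₁] [NontriviallyNormedField l₂] [ProperSpace k₁] [ProperSpace k₂]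
      [ProperSpace l₁] [ProperSpace l₂], H515.St.LocK k₁ → H515.St.LocK k₂ → H515.St.LocK l₁ →
      H515.St.LocK l₂ → ∀ m₁ m₂ n₁ n₂ : ℕ, 2 ≤ m₁ → 2 ≤ m₂ → 2 ≤ n₁ → 2 ≤ n₂ →
      ∀ (Γ : Subgroup (Matrix.SpecialLinearGroup (Fin m₁) k₁ × Matrix.SpecialLinearGroup (Fin m₂) k₂))
        (Λ : Subgroup (Matrix.SpecialLinearGroup (Fin n₁) l₁ × Matrix.SpecialLinearGroup (Fin n₂) l₂)),
      H515.St.IsLattice Γ → H515.St.IsLattice Λ → Icc Γ → Icc Λ →
      (DenseRange fun γ : Γ => (γ : Matrix.SpecialLinearGroup (Fin m₁) k₁ ×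
        Matrix.SpecialLinearGroup (Fin m₂) k₂).1) →
      (DenseRange fun γ : Γ => (γ : Matrix.SpecialLinearGroup (Fin m₁) k₁ ×
        Matrix.SpecialLinearGroup (Fin m₂) k₂).2) →
      (DenseRange fun γ : Λ => (γ : Matrix.SpecialLinearGroup (Fin n₁) l₁ ×
        Matrix.SpecialLinearGroup (Fin n₂) l₂).1) →
      (DenseRange fun γ : Λ => (γ : Matrix.SpecialLinearGroup (Fin n₁) l₁ ×
        Matrix.SpecialLinearGroup (Fin n₂) l₂).2) →
      ∀ (K : Type) [NormedAddCommGroup K] [InnerProductSpace ℂ K] [CompleteSpace K]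
        (D : Pic Γ Λ K), Can D)
    (Γ Λ : Type) [Group Γ] [Group Λ] (hΓ : PA.St.LocalProductLattice Γ)
    (hΛ : PA.St.LocalProductLattice Λ) (θ : St.StarIso Γ Λ) : St.Canonical θ := by
  obtain ⟨hic, k₁, k₂, _, _, m₁, m₂, i, p1, p2, a1, a2, b1, b2, hi⟩ := hΓ
  obtain ⟨hic', l₁, l₂, _, _, n₁, n₂, j, q1, q2, c1, c2, d1, d2, hj⟩ := hΛ
  refine canonical_of_sub i hi.inj j hj.inj hic (fun {K} _ _ _ D => ?_) θ
  exact H k₁ k₂ l₁ l₂ a1 a2 c1 c2 m₁ m₂ n₁ n₂ b1 b2 d1 d2 i.range j.range hi.lat hj.lat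
    (icc_range hi.inj hic) (icc_range hj.inj hic') (dense_fst hi) (dense_snd hi) (dense_fst hj)
    (dense_snd hj) K D

end Vale.Agent.P092.H259
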